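import Vale.Agent.P127.U.End.End7
import Vale.Agent.P127.U.Lam.Exist

/-!
# P127 / U / End : compact form of END7 (helper611)

`pEnd7F` : for `lam < β`, `N ≥ 2` there is `δ > 0` such that the penalised inequality holds with the rate
`β - δ` for the class `s ≤ n ≤ (1 + δ) s`.
-/

set_option autoImplicit false

namespace Vale.Agent.P127.U.End

open Finset Filter Topology Vale.Agent.P127 Vale.Agent.P127.Stk Vale.Agent.P127.U Sys Lam LamEx

variable {N lam β K : ℝ} {S : Sys} {γ : Type}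

/-- a violating sequence with `n / s → 1` gives a system with `n / L → 1` -/
theorem seq_sys1 (hl : 0 ≤ lam ∧ lam ≤ 1) (hN : 0 ≤ N) {b κ : ℕ → ℝ} {β : ℝ}
    (hκ : ∀ m, κ m ≤ 2) (hκ1 : Tendsto κ (uf : Filter ℕ) (𝓝 1))
    (hb0 : ∀ m, 0 ≤ b m) (hb : Tendsto b (uf : Filter ℕ) (𝓝 β))
    (h : ∀ m : ℕ, ∃ (Ω : Type) (_ : Fintype Ω) (P : Law Ω) (l : Ω → Ln) (t : Ω → ℝ) (s n : ℕ),
      GoodF P l t ∧ s ≤ n ∧ (n : ℝ) ≤ κ m * s ∧
      b m * (s * Real.log 2) + m + excFl lam P (tbx n l) (fun _ => ()) +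
        N * DF P s n l t (fun _ => ()) < XF lam P s n l t (fun _ => ())) :
    ∃ (S : Sys) (n : ℕ → ℕ) (l : S.RV Ln) (t : S.RV ℝ),
      S.Bd n ∧ S.nu n = 1 ∧ (∀ i, S.L i ≤ n i) ∧ LnA l ∧ T01 t ∧
      β + S.excl lam (tubes n l) (one (S := S)) + N * Dl S.L n l t (one (S := S)) ≤
        Xl lam S.L n l t (one (S := S)) := by
  choose Ω hf P l t s n hg hsn hnκ hlt using h
  have hlog : 0 < Real.log 2 := Real.log_pos (by norm_num)
  have hlog3 : 0 ≤ Real.log 3 := Real.log_nonneg (by norm_num)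
  have hnK : ∀ m, (n m : ℝ) ≤ 2 * s m := fun m =>
    (hnκ m).trans (mul_le_mul_of_nonneg_right (hκ m) (Nat.cast_nonneg _))
  set c : ℝ := 20 + N * Real.log 3 with hc
  have hn : ∀ m : ℕ, (m : ℝ) - c ≤ 11 * 2 * (s m * Real.log 2) := by
    intro m
    have h1 := XF_triv hl (P m) (s m) (n m) (l m) (t m) (hg m)
    have h2 := exc_nn hl (P m) (n m) (l m) (t m) (hg m)
    have h3 := DF_ge (P m) (s m) (n m) (l m) (t m) (hg m)
    have h5 := mul_le_mul_of_nonneg_left h3 hN
    have h6 := hlt m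
    have h7 : 0 ≤ b m * ((s m : ℝ) * Real.log 2) :=
      mul_nonneg (hb0 m) (mul_nonneg (Nat.cast_nonneg _) hlog.le)
    have h8 : (n m : ℝ) * Real.log 2 ≤ 2 * s m * Real.log 2 :=
      mul_le_mul_of_nonneg_right (hnK m) hlog.le
    rw [hc]
    nlinarith
  have htop : Tendsto s (uf : Filter ℕ) atTop := by
    refine Tendsto.mono_left ?_ uf_le
    rw [tendsto_atTop]
    intro k
    filter_upwards [eventually_ge_atTop ⌈c + 11 * 2 * (k * Real.log 2)⌉₊] with m hm
    have h1 : c + 11 * 2 * (k * Real.log 2) ≤ m := (Nat.le_ceil _).trans (by exact_mod_cast hm)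
    have h2 := hn m
    have h3 : (k : ℝ) ≤ s m := by
      have h5 : (k : ℝ) * Real.log 2 ≤ s m * Real.log 2 := by linarith
      exact le_of_mul_le_mul_right h5 hlog
    exact_mod_cast h3
  let S : Sys := ⟨Ω, hf, P, s, htop⟩
  have hln : Sys.LnA (S := S) l := Eventually.of_forall fun m ω hω => (hg m ω hω).1
  have ht : Sys.T01 (S := S) t := Eventually.of_forall fun m ω hω => (hg m ω hω).2
  have hBd : S.Bd n := ⟨2, Eventually.of_forall hnK⟩
  have hnu : S.nu n = 1 := by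
    unfold Sys.nu
    refine ulim_eq ?_
    refine tendsto_of_tendsto_of_tendsto_of_le_of_le' tendsto_const_nhds hκ1 ?_ ?_
    · filter_upwards [S.L_pos] with i hi
      have h1 : (0 : ℝ) < S.L i := by exact_mod_cast hi
      have h2 : (S.L i : ℝ) ≤ n i := by exact_mod_cast hsn i
      rw [le_div_iff₀ h1]
      linarith
    · filter_upwards [S.L_pos] with i hi
      have h1 : (0 : ℝ) < S.L i := by exact_mod_cast hi
      rw [div_le_iff₀ h1]
      exact hnκ i
  refine ⟨S, n, l, t, hBd, hnu, hsn, hln, ht, ?_⟩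
  obtain ⟨e1, u1⟩ := rhs_eq (N := N) (lam := lam) hl hBd hsn hln ht hb
  obtain ⟨ua, ub', -, -⟩ := ub_all (lam := lam) hl hBd hsn hln ht
  have uX : UB fun i => XF lam (S.P i) (S.L i) (n i) (l i) (t i) (fun _ => ()) / S.nm i := by
    obtain ⟨c', hc'⟩ := ua.add ub'
    refine ⟨c', ?_⟩
    filter_upwards [hc'] with i h1
    refine le_trans (le_of_eq ?_) h1
    rw [← add_div]
    rfl
  rw [e1, Xl_eq hl hBd hsn hln ht]
  refine ulim_le u1 uX ?_
  filter_upwards [S.nm_pos] with i hi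
  refine div_le_div_of_nonneg_right ?_ hi.le
  have h1 := (hlt i).le
  have h0 : (0 : ℝ) ≤ i := Nat.cast_nonneg _
  refine le_trans ?_ h1
  show b i * ((s i : ℝ) * Real.log 2) + excFl lam (P i) (tbx (n i) (l i)) (fun _ => ()) +
    N * DF (P i) (s i) (n i) (l i) (t i) (fun _ => ()) ≤ _
  linarith

/-- digits beyond `s` when `n - s = o(L)` -/
theorem hc_fl1_fine {n s : ℕ → ℕ} (hn : S.Bd n) (hs : ∀ i, s i ≤ n i) (he : S.nu n = S.nu s)
    {x : S.RV ℝ} {δ : Type} (Y : S.RV δ) (tX : Tame (dg n x))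
    (h : ∀ᶠ i in (uf : Filter ℕ), ∀ ω ω', 0 < (S.P i).w ω → 0 < (S.P i).w ω' →
      Y i ω' = Y i ω → |x i ω' - x i ω| ≤ (1 / 2 : ℝ) ^ s i) :
    S.hc (dg n x) Y = 0 := by
  refine le_antisymm ?_ (hc_nonneg tX _)
  have hbs : S.Bd s := Apx.bd_mono hn hs
  have e0 : S.nu (fun i => n i - s i) = 0 := by
    rw [Apx.nu_sub hn hs, he, sub_self]
  rw [← e0]
  have hb : S.Bd (fun i => n i - s i) := Apx.bd_mono hn fun i => Nat.sub_le _ _
  refine ulim_le_of_sub (UB.hc tX Y) (Apx.UB.nu hb) (S.const_div_nm (Real.log (2 * (1 : ℕ) + 3))) ?_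
  filter_upwards [h, S.L_pos] with i hi hL
  have h1 := Fi.near_fl1 (S.P i) (n i) (fun _ => s i) 1 (x i) (Y i) (fun _ _ => hs i)
    (fun ω ω' p p' e => by
      have := hi ω ω' p p' e
      push_cast
      linarith)
  rw [(S.P i).ex_const] at h1
  have hLr : (0:ℝ) < S.L i := by exact_mod_cast hL
  have hl2 : 0 < Real.log 2 := Real.log_pos (by norm_num)
  have hnm : S.nm i = S.L i * Real.log 2 := rfl
  have e1 : ((n i - s i : ℕ) : ℝ) = (n i : ℝ) - s i := Nat.cast_sub (hs i)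
  have h2 : Stk.hc (S.P i) (dg n x i) (Y i) / S.nm i ≤
      (Real.log (2 * (1 : ℕ) + 3) + Real.log 2 * ((n i : ℝ) - s i)) / S.nm i :=
    div_le_div_of_nonneg_right h1 (by rw [hnm]; positivity)
  refine h2.trans (le_of_eq ?_)
  simp only [e1, hnm]
  field_simp
  ring

/-- the finer tube is known from the coarser one when `n - s = o(L)` -/
theorem hc_tbs_fine {n s : ℕ → ℕ} (hn : S.Bd n) (hs : ∀ i, s i ≤ n i) (he : S.nu n = S.nu s)
    {l : S.RV Ln} (hl : LnA l) {δ : Type} (Y : S.RV δ) : S.hc (tbs n l) (Sys.pr (tbs s l) Y) = 0 := by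
  have T1 : Tame (tbs n l) := Fi.tame_tbs hn hl
  have h0 : ∀ (k : Fin 2), Tame (S := S) (dg n fun i ω => (l i ω).1 k) ∧
      S.hc (dg n fun i ω => (l i ω).1 k) (Sys.pr (tbs s l) Y) = 0 := by
    intro k
    have t1 : Tame (S := S) (dg n fun i ω => (l i ω).1 k) := by
      obtain ⟨c, hc⟩ := hn
      refine Fi.tame_dg (C := 1) hc ?_
      filter_upwards [hl] with i hi ω hω
      have := (hi ω hω).1 k
      push_cast
      exact this
    refine ⟨t1, hc_fl1_fine hn hs he _ t1 (Eventually.of_forall fun i ω ω' _ _ e => ?_)⟩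
    exact Fi.fl_close1 (congrArg (fun q => q.1.1) e) k
  have h1 : ∀ (k : Fin 2), Tame (S := S) (dg n fun i ω => (l i ω).2 k) ∧
      S.hc (dg n fun i ω => (l i ω).2 k) (Sys.pr (tbs s l) Y) = 0 := by
    intro k
    have t1 : Tame (S := S) (dg n fun i ω => (l i ω).2 k) := by
      obtain ⟨c, hc⟩ := hn
      refine Fi.tame_dg (C := 1) hc ?_
      filter_upwards [hl] with i hi ω hω
      have := (hi ω hω).2 k
      push_cast
      exact this
    refine ⟨t1, hc_fl1_fine hn hs he _ t1 (Eventually.of_forall fun i ω ω' _ _ e => ?_)⟩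
    exact Fi.fl_close1 (congrArg (fun q => q.1.2) e) k
  have tA := (h0 0).1.pr (h0 1).1
  have tB := (h1 0).1.pr (h1 1).1
  have zA := Fi.hc_zero_pair (h0 0).1 (h0 1).1 (h0 0).2 (h0 1).2
  have zB := Fi.hc_zero_pair (h1 0).1 (h1 1).1 (h1 0).2 (h1 1).2
  refine Fi.hc_zero_left T1 (tA.pr tB) (Fi.hc_zero_pair tA tB zA zB)
    (Eventually.of_forall fun i ω ω' _ _ e => ?_)
  simp only [pr_apply, Prod.mk.injEq] at e
  obtain ⟨⟨a0, a1⟩, b0, b1⟩ := e
  refine Prod.ext ?_ ?_
  · funext j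
    fin_cases j
    · exact a0
    · exact a1
  · funext j
    fin_cases j
    · exact b0
    · exact b1

/-- the excess of a box of size `o(L)` -/
theorem excl_small (hlam : 0 ≤ lam ∧ lam ≤ 1) {m : ℕ → ℕ} (hm : S.Bd m) (h0 : S.nu m = 0)
    {l : S.RV Ln} (hl : LnA l) (C : S.RV γ) : S.excl lam (tubes m l) C = 0 := by
  have hb : BxA (tubes m l) := Fi.tubes_bxA hm hl
  have hb0 : S.Bd (fun _ => 0) := ⟨0, Eventually.of_forall fun i => by simp⟩
  refine le_antisymm ?_ (Lam.excl_nonneg hlam C hb)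
  have h1 : S.h (tubes m l).lab = 0 := by
    have t1 : Tame (tbs m l) := Fi.tame_tbs hm hl
    have e : S.nu m = S.nu fun _ => 0 := by
      rw [h0]
      unfold Sys.nu
      simp only [Nat.cast_zero, zero_div]
      exact (ulim_const 0).symm
    have z1 := hc_tbs_fine (s := fun _ => 0) hm (fun _ => Nat.zero_le _) e hl (one (S := S))
    have t0 : Tame (tbs (fun _ => 0) l) := Fi.tame_tbs hb0 hl
    have z2 : S.h (tbs (fun _ => 0) l) = 0 := by
      refine Fi.hc_zero_pair (X := dgv (fun _ => 0) fun i ω => (l i ω).1)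
        (Y := dgv (fun _ => 0) (dir l)) ?_ (Fi.tame_dirv hb0 hl) ?_ ?_
      · obtain ⟨c, hc⟩ := hb0
        refine Fi.tame_dgv (C := 1) hc ?_
        filter_upwards [hl] with i hi ω hω j
        have := (hi ω hω).1 j
        push_cast
        exact this
      · refine Fi.hc_zero_fl _ 2 _ _ ?_
        filter_upwards [hl] with i h1 ω ω' hω hω' _ j
        have a1 := (h1 ω hω).1 j
        have a2 := (h1 ω' hω').1 j
        push_cast
        rw [abs_le] at a1 a2 ⊢
        constructor <;> linarith [a1.1, a1.2, a2.1, a2.2]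
      · refine Fi.hc_zero_fl _ 2 _ _ ?_
        filter_upwards [hl] with i h1 ω ω' hω hω' _ j
        have a1 := (h1 ω hω).2 j
        have a2 := (h1 ω' hω').2 j
        push_cast
        show |(l i ω').2 j - (l i ω).2 j| ≤ _
        rw [abs_le] at a1 a2 ⊢
        constructor <;> linarith [a1.1, a1.2, a2.1, a2.2]
    have z3 : S.h (tbs m l) = 0 := by
      refine le_antisymm ?_ (hc_nonneg t1 _)
      have := hc_le_add t1 t0 (one (S := S))
      rw [z1] at this
      have e2 : S.hc (tbs (fun _ => 0) l) (one (S := S)) = 0 := z2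
      have e3 : S.h (tbs m l) = S.hc (tbs m l) (one (S := S)) := rfl
      linarith
    exact Fi.hc_zero_trans hb.tame t1 (hc_fn (Coa.fn_lab m l)) z3
  rw [← h1]
  refine ulim_le (Lam.ub_exc hlam hb C) (UB.hc hb.tame _) ?_
  filter_upwards [S.nm_pos, hb.ok] with i g1 g2
  refine div_le_div_of_nonneg_right ?_ g1.le
  refine (Lam.excF_le_H hlam g2).trans (le_of_eq ?_)
  exact (hc_unit (S.P i) _).symm

/-- the lines of an extremal system may be rounded to the precision `L` if `n / L → 1` -/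
theorem coarsen (hlam : 0 ≤ lam ∧ lam ≤ 1) (hN : 0 ≤ N) (hJ : JL N lam β) {n : ℕ → ℕ} {l : S.RV Ln}
    {t : S.RV ℝ} (hn : S.Bd n) (hsn : ∀ i, S.L i ≤ n i) (hnu : S.nu n = 1) (hl : LnA l) (ht : T01 t)
    (h : β + S.excl lam (tubes n l) (one (S := S)) + N * Dl S.L n l t (one (S := S)) ≤
        Xl lam S.L n l t (one (S := S))) : XtrL N lam β S S.L l t := by
  refine ⟨Bd_L, fun _ => le_rfl, hl, ht, le_antisymm ?_ ?_⟩
  · have := hJ S _ (one (S := S)) l t S.L S.L Bd_L hl ht fun _ => le_rfl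
    rwa [nu_L, mul_one] at this
  have tn : Tame (tbs n l) := Fi.tame_tbs hn hl
  have tL : Tame (tbs S.L l) := Fi.tame_tbs Bd_L hl
  have tdL : Tame (dg S.L t) := Fi.t01_tame ht Bd_L
  have hnuL : S.nu n = S.nu S.L := by rw [hnu, nu_L]
  -- the excess
  have e1 : S.excl lam (tubes S.L l) (one (S := S)) ≤ S.excl lam (tubes n l) (one (S := S)) := by
    have bn := tubes_ok hn hl
    have bL := tubes_ok Bd_L hl
    have g := Lam.excl_coarse hlam (one (S := S)) bn bL (Coa.subA_tubes hsn l)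
    have g1 : (S.av fun i ω => (tubes n l).szl lam i ω - (tubes S.L l).szl lam i ω) = 0 := by
      have hb : S.Bd (fun i => n i - S.L i) := Apx.bd_mono hn fun i => Nat.sub_le _ _
      have a1 : (S.av fun i ω => (tubes n l).szl lam i ω - (tubes S.L l).szl lam i ω) =
          2 * S.nu (fun i => n i - S.L i) := by
        refine av_const hb fun i ω => ?_
        show ((1 + lam) * (n i : ℝ) + (1 - lam) * (n i : ℝ)) -
          ((1 + lam) * (S.L i : ℝ) + (1 - lam) * (S.L i : ℝ)) = 2 * ((n i - S.L i : ℕ) : ℝ)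
        rw [Nat.cast_sub (hsn i)]
        ring
      rw [a1, Apx.nu_sub hn hsn, hnuL, sub_self, mul_zero]
    have g2 : S.hc (tubes S.L l).lab (Sys.pr (tubes n l).lab (one (S := S))) = 0 := by
      refine hc_fn ?_
      filter_upwards [Coa.fn_lab S.L l, Coa.fn_tbs hsn l, Coa.fn_lab' n l] with i g1 g2 g3 ω ω' p p' e
      exact g1 ω ω' p p' (g2 ω ω' p p' (g3 ω ω' p p' (congrArg Prod.fst e)))
    have g3 := hc_nonneg bn.tame (Sys.pr (tubes S.L l).lab (one (S := S)))
    linarith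
  -- the deficit
  have e2 : Dl S.L S.L l t (one (S := S)) ≤ Dl S.L n l t (one (S := S)) := by
    have g : S.hc (dg S.L t) (Sys.pr (tbs n l) (one (S := S))) ≤
        S.hc (dg S.L t) (Sys.pr (tbs S.L l) (one (S := S))) := by
      refine hc_mono_right tdL ?_
      filter_upwards [Coa.fn_tbs hsn l] with i g2 ω ω' p p' e
      exact Prod.ext (g2 ω ω' p p' (congrArg Prod.fst e)) rfl
    unfold Dl
    linarith
  -- the value
  have hpar : Fi.Par S n S.L (fun i => n i - S.L i) := ⟨fun i => Nat.add_sub_cancel' (hsn i), hn⟩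
  have e3 : Xl lam S.L n l t (one (S := S)) ≤ Xl lam S.L S.L l t (one (S := S)) := by
    have hm : S.Bd (fun i => n i - S.L i) := Apx.bd_mono hn fun i => Nat.sub_le _ _
    have g1 : S.excl lam (tubes (fun i => n i - S.L i) (bl S.L l t))
        (Sys.pr (pqs S.L (pt l t)) (one (S := S))) = 0 := by
      refine excl_small hlam hm ?_ (Fi.bl_ok hl) _
      rw [Apx.nu_sub hn hsn, hnuL, sub_self]
    have tT : Tame (tl S.L n l t) := tame_tl hn hsn hl ht
    have g2 : S.hc (tbs n l) (Sys.pr (tl S.L n l t) (one (S := S))) ≤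
        S.hc (tbs S.L l) (Sys.pr (tl S.L S.L l t) (one (S := S))) := by
      have k1 := hc_le_of_zero tn tL (hc_tbs_fine hn hsn hnuL hl
        (Sys.pr (tl S.L n l t) (one (S := S))))
      refine k1.trans (hc_mono_right tL (Eventually.of_forall fun i ω ω' _ _ e => ?_))
      have a1 : fl1 (S.L i) (t i ω) = fl1 (S.L i) (t i ω') := congrArg (fun q => q.1.1) e
      have a2 : fl (n i) (pos (l i ω) (qa (S.L i) (t i ω))) =
        fl (n i) (pos (l i ω') (qa (S.L i) (t i ω'))) := congrArg (fun q => q.1.2.1) e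
      have a3 : fl (n i - S.L i) (l i ω).2 = fl (n i - S.L i) (l i ω').2 := congrArg (fun q => q.1.2.2) e
      refine Prod.ext ?_ rfl
      show (fl1 (S.L i) (t i ω), fl (S.L i) (pos (l i ω) (qa (S.L i) (t i ω))),
          fl (S.L i - S.L i) (l i ω).2) =
        (fl1 (S.L i) (t i ω'), fl (S.L i) (pos (l i ω') (qa (S.L i) (t i ω'))),
          fl (S.L i - S.L i) (l i ω').2)
      rw [a1, Stk.fl_of_fl (hsn i) _ _ a2, Nat.sub_self, Stk.fl_of_fl (Nat.zero_le _) _ _ a3]
    have g3 := le_xl_full (S := S) hlam Bd_L hl ht (one (S := S))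
    have g4 : 0 ≤ S.excl lam (tubes (fun i => S.L i - S.L i) (bl S.L l t))
        (Sys.pr (pqs S.L (pt l t)) (one (S := S))) :=
      Lam.excl_nonneg hlam _ (Fi.tubes_bxA (Apx.bd_mono Bd_L fun i => Nat.sub_le _ _) (Fi.bl_ok hl))
    unfold Xl
    rw [g1]
    linarith
  have e4 := mul_le_mul_of_nonneg_left e2 hN
  show β + S.excl lam (tubes S.L l) (one (S := S)) + N * Dl S.L S.L l t (one (S := S)) ≤ _
  linarith

end Vale.Agent.P127.U.End

namespace Vale.Agent.P127.U

open Filter Topology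

/-- compact form of END7 -/
def PEnd7F : Prop :=
  ∀ N lam β : ℝ, 2 ≤ N → 0 < lam → lam ≤ 1 → lam < β → JL N lam β →
    ∃ δ : ℝ, 0 < δ ∧ δ ≤ 1 ∧ JFK N lam (1 + δ) (β - δ)

theorem pEnd7F : PEnd7F := by
  intro N lam β hN h0 h1 hβ hJ
  have hlam : 0 ≤ lam ∧ lam ≤ 1 := ⟨h0.le, h1⟩
  have hβ0 : 0 < β := h0.trans hβ
  by_contra hcon
  push Not at hcon
  set δ : ℕ → ℝ := fun m => min β 1 * (1 / ((m : ℝ) + 1)) with hδ
  have hm1 : ∀ m : ℕ, 0 < 1 / ((m : ℝ) + 1) ∧ 1 / ((m : ℝ) + 1) ≤ 1 := by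
    intro m
    have h2 : (0 : ℝ) ≤ m := Nat.cast_nonneg m
    refine ⟨by positivity, ?_⟩
    rw [div_le_one (by positivity)]
    linarith
  have hmin : 0 < min β 1 := lt_min hβ0 one_pos
  have hδ0 : ∀ m, 0 < δ m := fun m => mul_pos hmin (hm1 m).1
  have hδm : ∀ m, δ m ≤ min β 1 := fun m => mul_le_of_le_one_right hmin.le (hm1 m).2
  have hδlim : Tendsto δ (uf : Filter ℕ) (𝓝 0) := by
    refine Tendsto.mono_left ?_ uf_le
    have h3 := (tendsto_one_div_add_atTop_nhds_zero_nat (𝕜 := ℝ)).const_mul (min β 1)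
    rw [mul_zero] at h3
    exact h3
  obtain ⟨S, n, l, t, g1, g2, g3, g4, g5, g6⟩ := End.seq_sys1 (lam := lam) (N := N)
    (b := fun m => β - δ m) (κ := fun m => 1 + δ m) (β := β) hlam (by linarith)
    (fun m => by
      have := hδm m
      have := min_le_right β 1
      linarith)
    (by
      have := hδlim.const_add 1
      rw [add_zero] at this
      exact this)
    (fun m => by
      have := hδm m
      have := min_le_left β 1
      linarith)
    (by
      have := hδlim.const_sub β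
      rw [sub_zero] at this
      exact this)
    (fun m => by
      obtain ⟨ε, hε, k1⟩ := LamEx.jfk_not (hcon (δ m) (hδ0 m) ((hδm m).trans (min_le_right _ _)))
      obtain ⟨Ω, hf, P, l, t, s, n, hg, k2, k3, hlt⟩ := k1 m
      refine ⟨Ω, hf, P, l, t, s, n, hg, k2, k3, lt_of_le_of_lt ?_ hlt⟩
      have h0 : 0 ≤ (s : ℝ) * Real.log 2 :=
        mul_nonneg (Nat.cast_nonneg _) (Real.log_nonneg (by norm_num))
      have : (β - δ m) * (s * Real.log 2) ≤ (β - δ m + ε) * (s * Real.log 2) :=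
        mul_le_mul_of_nonneg_right (by linarith) h0
      linarith)
  exact End.end7 hN h0 h1 hβ hJ (End.coarsen hlam (by linarith) hJ g1 g3 g2 g4 g5 g6)

end Vale.Agent.P127.U
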