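import Vale.Agent.P127.U.SlabOf
import Vale.Agent.P127.U.Bil
import Vale.Agent.P127.U.FillB
import Vale.Agent.P127.U.Lam.ExcB

/-!
# P127 / U / End : the last step of END7 (helper611), with any side information `C`

`end_step` : if the system `(l, t | C)` satisfies the counting bound `Cnt N β` (so that the lines
through a ball of radius `2^-(1-r)L` are planar) and branches at positive rate `Tr c` (for all
dominated systems), then at the level `s = (1 - r) L` the slab of the ball gives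

`X(1-r) ≥ h(l | Z_L, C) - (D(1) - D(1-r)) - lam r`,

`X(1-r) = excl lam (tubelets | Z_s, C) + h(l | tubelet, C)`.
-/

set_option autoImplicit false

namespace Vale.Agent.P127.U

open Filter Topology Vale.Agent.P127 Vale.Agent.P127.Stk Sys Apx Coa Flat PlaneOf Bil

namespace End

variable {S : Sys} {γ : Type}

/-- the cell of the tubelet given the point -/
theorem cell_pt {s : ℕ → ℕ} {l : S.RV Ln} {t : S.RV ℝ} (hl : LnA l) :
    S.hc (dgv s (Fi.ps s l t)) (pqs s (pt l t)) = 0 := by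
  refine Fi.hc_zero_fl s 3 (Fi.ps s l t) _ ?_
  filter_upwards [hl] with i h1 ω ω' hω hω' e j
  have a1 : |pos (l i ω') (t i ω') j - pos (l i ω) (t i ω) j| ≤ (1 / 2 : ℝ) ^ s i :=
    Fi.fl_close1 (congrArg Prod.snd e) j
  have a2 : ∀ ω, 0 < (S.P i).w ω → |pos (l i ω) (t i ω) j - pos (l i ω) (qa (s i) (t i ω)) j| ≤
      (1 / 2 : ℝ) ^ s i := by
    intro ω hω
    have e1 : pos (l i ω) (t i ω) j - pos (l i ω) (qa (s i) (t i ω)) j =
        (t i ω - qa (s i) (t i ω)) * (l i ω).2 j := by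
      unfold pos
      ring
    rw [e1, abs_mul]
    have b1 := abs_sub_qa (s i) (t i ω)
    have b2 := (h1 ω hω).2 j
    have := mul_le_mul b1 b2 (abs_nonneg _) (by positivity)
    rw [mul_one] at this
    exact this
  have a3 := a2 ω hω
  have a4 := a2 ω' hω'
  show |pos (l i ω') (qa (s i) (t i ω')) j - pos (l i ω) (qa (s i) (t i ω)) j| ≤ _
  push_cast
  rw [abs_le] at a1 a3 a4 ⊢
  constructor <;> linarith [a1.1, a1.2, a3.1, a3.2, a4.1, a4.2]

theorem tl_fn {n s m : ℕ → ℕ} (h : Fi.Par S n s m) {l : S.RV Ln} {t : S.RV ℝ} :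
    Fn (tl s n l t) (Sys.pr (dgv s (Fi.ps s l t)) (Sys.pr (tbs m (bl s l t)) (pqs s (pt l t)))) :=
  Eventually.of_forall fun i ω ω' _ _ e => by
    have e1 : fl (s i) (Fi.ps s l t i ω) = fl (s i) (Fi.ps s l t i ω') := congrArg Prod.fst e
    have e2 : fl (m i) (bl s l t i ω).1 = fl (m i) (bl s l t i ω').1 := congrArg (fun q => q.2.1.1) e
    have e3 : fl (m i) (l i ω).2 = fl (m i) (l i ω').2 := congrArg (fun q => q.2.1.2) e
    have e4 : fl1 (s i) (t i ω) = fl1 (s i) (t i ω') := congrArg (fun q => q.2.2.1) e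
    have hm : n i - s i = m i := by have := h.add i; omega
    show (fl1 (s i) (t i ω), fl (n i) (pos (l i ω) (qa (s i) (t i ω))), fl (n i - s i) (l i ω).2) =
      (fl1 (s i) (t i ω'), fl (n i) (pos (l i ω') (qa (s i) (t i ω'))), fl (n i - s i) (l i ω').2)
    rw [hm, e3, e4]
    congr 2
    funext j
    have f1 := fl_fract (s i) (m i) (Fi.ps s l t i ω) j
    have f2 := fl_fract (s i) (m i) (Fi.ps s l t i ω') j
    have g1 : fl (m i) (fun j => Int.fract ((2:ℝ) ^ s i * Fi.ps s l t i ω j)) j =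
        fl (m i) (fun j => Int.fract ((2:ℝ) ^ s i * Fi.ps s l t i ω' j)) j := congrFun e2 j
    have g2 := congrFun e1 j
    rw [f1, f2, g2, h.add i] at g1
    have g3 : fl (n i) (Fi.ps s l t i ω) j = fl (n i) (Fi.ps s l t i ω') j := by linarith

    exact g3

/-- the tubelet is known from the cell of the point and the tube in the ball -/
theorem tl_zero {n s m : ℕ → ℕ} (h : Fi.Par S n s m) {l : S.RV Ln} {t : S.RV ℝ} (hl : LnA l)
    (ht : T01 t) : S.hc (tl s n l t) (Sys.pr (tbs m (bl s l t)) (pqs s (pt l t))) = 0 := by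
  have tc : Tame (dgv s (Fi.ps s l t)) := Fi.tame_ps h.bds hl ht
  have t1 : Tame (pqs s (pt l t)) := Fi.tame_pqs h.bds hl ht
  have t2 : Tame (tbs m (bl s l t)) := Fi.tame_tbs h.bdm (Fi.bl_ok hl)
  refine Fi.hc_zero_left (X' := Sys.pr (dgv s (Fi.ps s l t)) (Sys.pr (tbs m (bl s l t)) (pqs s (pt l t))))
    ?_ (tc.pr (t2.pr t1)) ?_ ?_
  · refine (tc.pr (t2.pr t1)).mono ?_
    exact tl_fn h
  · refine Fi.hc_zero_pair tc (t2.pr t1) ?_ (hc_fn (Eventually.of_forall fun _ _ _ _ _ e => e))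
    exact Fi.hc_zero_mono tc (cell_pt hl) (Eventually.of_forall fun _ _ _ _ _ e => congrArg Prod.snd e)
  · exact tl_fn h

/-- the point in the ball is a function of the point -/
theorem pt_ball {s m : ℕ → ℕ} (h : Fi.Par S S.L s m) {l : S.RV Ln} {t : S.RV ℝ} (hl : LnA l) :
    S.hc (pqs m (pt (bl s l t) (LocB.tb' s t))) (pqs S.L (pt l t)) = 0 := by
  refine hc_zero_of_le (2 * Real.log 9 + (Real.log 5 + 2 * Real.log 5)) ?_
  filter_upwards [hl] with i hi
  have hm : S.L i - s i = m i := by have := h.add i; omega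
  have b3 := LocB.point_le (S.P i) (s i) (S.L i) (h.sn i) (l i) (t i) hi (pqs S.L (pt l t) i) (by
      intro ω ω' _ _ e
      exact ⟨congrArg Prod.fst e, congrArg Prod.snd e⟩)
  rw [hm] at b3
  exact b3

theorem zero_via {α β δ ε : Type} {X : S.RV α} {Y : S.RV β} {W : S.RV δ} {W' : S.RV ε} (hX : Tame X)
    (hY : Tame Y) (h : S.hc X (Sys.pr Y W) = 0) (h' : S.hc Y W' = 0) (hf : Fn W W') :
    S.hc X W' = 0 := by
  refine le_antisymm ?_ (hc_nonneg hX _)
  have h1 := hc_le_add hX hY W'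
  have h2 : S.hc X (Sys.pr Y W') = 0 := by
    refine Fi.hc_zero_mono hX h ?_
    filter_upwards [hf] with i hi ω ω' p p' e
    simp only [pr_apply, Prod.mk.injEq] at e ⊢
    exact ⟨e.1, hi ω ω' p p' e.2⟩
  linarith

/-- the entropy count of the last step -/
theorem end_alg {α β δ ε ζ η κ : Type} {X : S.RV α} {Y : S.RV β} {Z : S.RV δ} {Zs : S.RV ε}
    {A : S.RV ζ} {T : S.RV η} {dL ds : S.RV κ} {C : S.RV γ} (tX : Tame X) (tY : Tame Y) (tZ : Tame Z)
    (tZs : Tame Zs) (tA : Tame A) (tT : Tame T) (tdL : Tame dL) (tds : Tame ds)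
    (zT : S.hc T (Sys.pr Y Zs) = 0) (zAZ : S.hc (Sys.pr A Zs) (Sys.pr Z C) = 0)
    (zAZ' : S.hc (Sys.pr A Zs) (Sys.pr ds (Sys.pr X C)) = 0) (fd : Fn dL Z)
    (e3 : 2 * S.hc Z (Sys.pr X (Sys.pr A (Sys.pr Zs C))) ≤ S.hc Z (Sys.pr A (Sys.pr Zs C))) :
    S.hc X (Sys.pr Z C) + (S.hc dL (Sys.pr X C) - S.hc ds (Sys.pr X C)) ≤
      S.hc Y (Sys.pr A (Sys.pr Zs C)) + S.hc X (Sys.pr T C) := by
  have b1 := hc_le_add tX tY (Sys.pr A (Sys.pr Zs C))
  have zT' : S.hc T (Sys.pr Y (Sys.pr A (Sys.pr Zs C))) = 0 :=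
    Fi.hc_zero_mono tT zT (Eventually.of_forall fun _ _ _ _ _ e => by
      simp only [pr_apply, Prod.mk.injEq] at e ⊢
      exact ⟨e.1, e.2.2.1⟩)
  have b2 : S.hc X (Sys.pr Y (Sys.pr A (Sys.pr Zs C))) ≤ S.hc X (Sys.pr T C) := by
    rw [← hc_cond_zero tX tT zT']
    refine hc_mono_right tX (Eventually.of_forall fun _ _ _ _ _ e => ?_)
    simp only [pr_apply, Prod.mk.injEq] at e ⊢
    exact ⟨e.1, e.2.2.2.2⟩
  have c1 := mi_comm tX tZ (Sys.pr A (Sys.pr Zs C))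
  unfold Sys.mi at c1
  have d1 : S.hc X (Sys.pr Z C) ≤ S.hc X (Sys.pr Z (Sys.pr A (Sys.pr Zs C))) := by
    rw [← hc_cond_zero tX (tA.pr tZs) zAZ]
    refine hc_mono_right tX (Eventually.of_forall fun _ _ _ _ _ e => ?_)
    simp only [pr_apply, Prod.mk.injEq] at e ⊢
    exact ⟨e.2.1, e.1.1, e.1.2, e.2.2⟩
  have f1 := hc_le_add tdL tds (Sys.pr X C)
  have f2 : S.hc dL (Sys.pr ds (Sys.pr X C)) ≤ S.hc dL (Sys.pr X (Sys.pr A (Sys.pr Zs C))) := by
    rw [← hc_cond_zero tdL (tA.pr tZs) zAZ']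
    refine hc_mono_right tdL (Eventually.of_forall fun _ _ _ _ _ e => ?_)
    simp only [pr_apply, Prod.mk.injEq] at e ⊢
    exact ⟨e.2.2.1, e.1.1, e.1.2, e.2.2.2⟩
  have f3 : S.hc dL (Sys.pr X (Sys.pr A (Sys.pr Zs C))) ≤ S.hc Z (Sys.pr X (Sys.pr A (Sys.pr Zs C))) :=
    hc_mono_left tZ tdL (by
      filter_upwards [fd] with i hi ω ω' p p' e
      exact hi ω ω' p p' (congrArg Prod.fst e))
  linarith

theorem fn_pr_left {α β δ : Type} {X : S.RV α} {Y : S.RV β} {C : S.RV δ} (h : Fn X Y) :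
    Fn X (Sys.pr Y C) := by
  filter_upwards [h] with i hi ω ω' p p' e
  exact hi ω ω' p p' (congrArg Prod.fst e)

theorem slab_sub {R : ℕ → ℕ} {l : S.RV Ln}
    {θ : S.RV ℝ} (hθ4 : S.Ae fun i ω => |θ i ω| ≤ 4) : SubA (tubes R l) (slab R θ l) := by
  refine ⟨1, ?_⟩
  filter_upwards [hθ4] with i hi ω hω
  refine ⟨rfl, hi ω hω, Nat.zero_le _, Nat.zero_le _, le_rfl, ?_⟩
  exact mul_le_mul_of_nonneg_right (Real.abs_sin_le_one _) (by positivity)

theorem av_const {f : S.RV ℝ} {n : ℕ → ℕ} (hn : S.Bd n) {c : ℝ} (h : ∀ i ω, f i ω = c * (n i : ℝ)) :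
    S.av f = c * S.nu n := by
  unfold Sys.av Sys.nu
  rw [← ulim_const_mul c hn.ub]
  refine ulim_congr (Eventually.of_forall fun i => ?_)
  have h0 : f i = fun _ => c * (n i : ℝ) := funext (h i)
  rw [h0, (S.P i).ex_const, mul_div_assoc]

theorem slab_szl {lam : ℝ} {R : ℕ → ℕ} {l : S.RV Ln}
    {θ : S.RV ℝ} (i : ℕ) (ω : S.Ω i) : (tubes R l i).szl lam ω - (slab R θ l i).szl lam ω =
      (1 + lam) * (R i : ℝ) := by
  show ((1 + lam) * (R i : ℝ) + (1 - lam) * (R i : ℝ)) -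
        ((1 + lam) * ((0 : ℕ) : ℝ) + (1 - lam) * (R i : ℝ)) = _
  push_cast
  ring

theorem excl_ge' {lam : ℝ} (hlam : 0 ≤ lam ∧ lam ≤ 1) {B W : S.BX} (hB : BxA B) (hW : BxA W)
    (hs : SubA B W) (C : S.RV γ) : S.vall lam B W C ≤ S.excl lam B C :=
  Lam.excl_ge hlam (Ext.refl S) C hB hW hs

theorem slab_vall {lam : ℝ} {R : ℕ → ℕ} (hbR : S.Bd R) {l : S.RV Ln} {θ : S.RV ℝ} (C : S.RV γ) :
    S.vall lam (tubes R l) (slab R θ l) C =
      S.hc (tubes R l).lab (Sys.pr (slab R θ l).lab C) - (1 + lam) * S.nu R := by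
  have h : (S.av fun i ω => (tubes R l).szl lam i ω - (slab R θ l).szl lam i ω) =
      (1 + lam) * S.nu R := av_const hbR slab_szl
  unfold Sys.vall
  rw [h]

/-- the penalised value of the slab as a container of the tubelet -/
theorem slab_val {lam : ℝ} (hlam : 0 ≤ lam ∧ lam ≤ 1) {R : ℕ → ℕ} (hbR : S.Bd R) {l : S.RV Ln}
    (hl : LnA l) {θ : S.RV ℝ} (hθ4 : S.Ae fun i ω => |θ i ω| ≤ 4) (hsl : BxA (slab R θ l))
    (C : S.RV γ) :
    S.hc (tbs R l) (Sys.pr (slab R θ l).lab C) - (1 + lam) * S.nu R ≤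
      S.excl lam (tubes R l) C := by
  have hb := tubes_ok hbR hl
  have a3 : S.hc (tbs R l) (Sys.pr (slab R θ l).lab C) ≤
      S.hc (tubes R l).lab (Sys.pr (slab R θ l).lab C) :=
    hc_mono_left hb.tame (Fi.tame_tbs hbR hl) (fn_pr_left (fn_lab' R l))
  refine le_trans ?_ (excl_ge' hlam hb hsl (slab_sub hθ4) C)
  rw [slab_vall hbR]
  exact sub_le_sub_right a3 _

/-- the last step: the slab of the ball of radius `2^-(1-r)L` -/
theorem end_step {N β lam c : ℝ} (hlam : 0 ≤ lam ∧ lam ≤ 1) (hN : 2 ≤ N) (hβ : 0 < β) (hc : 0 < c)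
    {l : S.RV Ln} {t : S.RV ℝ} {C : S.RV γ} (hl : LnA l) (ht : T01 t) (hX : Cnt N β S l t C)
    (hT : Tr c S l t C) :
    ∃ r₀ : ℝ, 0 < r₀ ∧ r₀ < 1 ∧ ∀ r : ℝ, 0 < r → r ≤ r₀ →
      S.hc (tbs S.L l) (Sys.pr (pqs S.L (pt l t)) C) -
        (Dfc l t C S.L - Dfc l t C (S.sc (1 - r))) - lam * r ≤
      S.excl lam (tubes (fun i => S.L i - S.sc (1 - r) i) (bl (S.sc (1 - r)) l t))
        (Sys.pr (pqs (S.sc (1 - r)) (pt l t)) C) +
      S.hc (tbs S.L l) (Sys.pr (tl (S.sc (1 - r)) S.L l t) C) := by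
  obtain ⟨r₀, hr0, hr1, hpl⟩ := plane_of hN hβ hl ht hX
  refine ⟨r₀, hr0, hr1, fun r hr hrr => ?_⟩
  obtain ⟨θ, hθ4, -, hθ⟩ := hpl r hr hrr
  obtain ⟨hsl, K1, K2⟩ := SlabOf.slab_fn hl ht C hr.le (by linarith) hθ4 hθ
  set s : ℕ → ℕ := S.sc (1 - r) with hs_def
  set R : ℕ → ℕ := fun i => S.L i - s i with hR_def
  have hs : ∀ i, s i ≤ S.L i := Coa.sc_le (by linarith)
  have hbs : S.Bd s := bd_of_le Bd_L hs
  have hbR : S.Bd R := bd_of_le Bd_L fun i => Nat.sub_le _ _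
  have hPar : Fi.Par S S.L s R := ⟨fun i => by have := hs i; show s i + (S.L i - s i) = S.L i; omega, Bd_L⟩
  set l' : S.RV Ln := bl s l t with hl'_def
  have hl' : LnA l' := Fi.bl_ok hl
  set Z := pqs S.L (pt l t) with hZ
  set Zs := pqs s (pt l t) with hZs
  set A := (slab R θ l').lab with hA
  set X := tbs S.L l with hXd
  set Y := tbs R l' with hY
  set T := tl s S.L l t with hT_def
  have tZ : Tame Z := Fi.tame_pqs Bd_L hl ht
  have tZs : Tame Zs := Fi.tame_pqs hbs hl ht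
  have tX : Tame X := Fi.tame_tbs Bd_L hl
  have tY : Tame Y := Fi.tame_tbs hbR hl'
  have tA : Tame A := hsl.tame
  have tds : Tame (dg s t) := Fi.t01_tame ht hbs
  have tdL : Tame (dg S.L t) := Fi.t01_tame ht Bd_L
  have tT : Tame T := by
    refine Tame.mono ?_ (tl_fn hPar)
    exact (Fi.tame_ps hbs hl ht).pr (tY.pr tZs)
  -- everything is known from `(Z, C)`
  have zs : ∀ {δ : Type} (W : S.RV δ), S.hc Zs (Sys.pr Z W) = 0 := fun W =>
    Fi.hc_zero_mono tZs (hc_fn (Coa.fn_pqs hs (pt l t))) (Eventually.of_forall fun _ _ _ _ _ e => congrArg Prod.fst e)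
  have tq : Tame (pqs R (pt l' (LocB.tb' s t))) := Fi.tame_pqs hbR hl'
    (Eventually.of_forall fun i ω _ => ⟨Int.fract_nonneg _, (Int.fract_lt_one _).le⟩)
  have zA : S.hc A (Sys.pr Z C) = 0 := by
    have k1 : S.hc A (Sys.pr (Sys.pr (pqs R (pt l' (LocB.tb' s t))) Zs) C) = 0 :=
      Fi.hc_zero_mono tA K1 (Eventually.of_forall fun _ _ _ _ _ e => by
        simp only [pr_apply, Prod.mk.injEq] at e ⊢
        exact ⟨e.1.1, e.1.2, e.2⟩)
    refine zero_via tA (tq.pr tZs) k1 ?_ (Eventually.of_forall fun _ _ _ _ _ e => congrArg Prod.snd e)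
    refine Fi.hc_zero_pair tq tZs ?_ (zs C)
    exact Fi.hc_zero_mono tq (pt_ball hPar hl) (Eventually.of_forall fun _ _ _ _ _ e => congrArg Prod.fst e)
  have zs' : S.hc Zs (Sys.pr (dg s t) X) = 0 := Fi.zero_coarse' hPar hl ht
  have zY : S.hc Y (Sys.pr (dg s t) X) = 0 :=
    Fi.hc_zero_trans tY (tubes_ok hbR hl').tame (hc_fn (fn_lab' R l')) (Fi.zero_tubelet_tb hPar hl ht)
  have zA' : S.hc A (Sys.pr (dg s t) (Sys.pr X C)) = 0 := by
    have k1 : S.hc A (Sys.pr (Sys.pr Y Zs) C) = 0 :=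
      Fi.hc_zero_mono tA K2 (Eventually.of_forall fun _ _ _ _ _ e => by
        simp only [pr_apply, Prod.mk.injEq] at e ⊢
        exact ⟨e.1.1, e.1.2, e.2⟩)
    refine zero_via tA (tY.pr tZs) k1 ?_ (Eventually.of_forall fun _ _ _ _ _ e => by
      simp only [pr_apply, Prod.mk.injEq] at e
      exact e.2.2)
    refine Fi.hc_zero_mono (tY.pr tZs) (Fi.hc_zero_pair tY tZs zY zs') (Eventually.of_forall fun _ _ _ _ _ e => by
      simp only [pr_apply, Prod.mk.injEq] at e ⊢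
      exact ⟨e.1, e.2.1⟩)
  have hnu : S.nu R = r := by
    have h1 := Apx.nu_sub (S := S) Bd_L hs
    rw [Plane.nu_L, Coa.nu_sc (by linarith : (0:ℝ) ≤ 1 - r)] at h1
    linarith
  have a1 := slab_val hlam hbR hl' hθ4 hsl (Sys.pr Zs C)
  -- the bilinear inequality
  have e1 : Tr c S l t (Sys.pr Zs C) := hT.add hl tZs (zs C)
  have e2 : Tr c S l t (Sys.pr A (Sys.pr Zs C)) :=
    e1.add hl tA (Fi.hc_zero_mono tA zA (Eventually.of_forall fun _ _ _ _ _ e => by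
      simp only [pr_apply, Prod.mk.injEq] at e ⊢
      exact ⟨e.1, e.2.2⟩))
  have e3 := bil hc hl ht e2
  have f0 : S.hc (Sys.pr A Zs) (Sys.pr (dg s t) (Sys.pr X C)) = 0 :=
    Fi.hc_zero_pair tA tZs zA' (Fi.hc_zero_mono tZs zs' (Eventually.of_forall fun _ _ _ _ _ e => by
      simp only [pr_apply, Prod.mk.injEq] at e ⊢
      exact ⟨e.1, e.2.1⟩))
  have g := end_alg (T := T) tX tY tZ tZs tA tT tdL tds (tl_zero hPar hl ht)
    (Fi.hc_zero_pair tA tZs zA (zs C)) f0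
    (Eventually.of_forall fun _ _ _ _ _ e => congrArg (fun q => q.1) e) e3
  have f4 : Dfc l t C S.L = S.nu S.L - S.hc (dg S.L t) (Sys.pr X C) := rfl
  have f5 : Dfc l t C s = S.nu s - S.hc (dg s t) (Sys.pr X C) := rfl
  have f6 : S.nu s = 1 - r := Coa.nu_sc (by linarith)
  rw [Plane.nu_L] at f4
  rw [hnu] at a1
  linarith

end End

end Vale.Agent.P127.U
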