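import Vale.Agent.P127.U.LocT
import Vale.Agent.P127.U.FillB
import Vale.Agent.P127.U.Lam.TopA
import Vale.Agent.P127.U.Lam.ExcB

/-!
# P127 / U / End : the penalised inequality at full precision and inside a tube (helper611, after helper543)
-/

set_option autoImplicit false

namespace Vale.Agent.P127.U.End

open Filter Topology Vale.Agent.P127 Vale.Agent.P127.Stk Vale.Agent.P127.U Sys Apx

variable {N lam β : ℝ}

section finite

variable {Ω : Type} [Fintype Ω] {γ : Type}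

/-- the penalised excess inside a tube -/
theorem excFl_zm (hlam : 0 ≤ lam ∧ lam ≤ 1) (P : Law Ω) (l : Ω → Ln) (C : Ω → γ) {n s : ℕ} (h : s ≤ n) :
    excFl lam P (tbx (n - s) fun ω => LocT.zm s (l ω)) (fun ω => (tb s (l ω), C ω)) ≤
      excFl lam P (tbx n l) (fun ω => (tb s (l ω), C ω)) + Real.log (((2 * 1 + 1) ^ 4 : ℕ) : ℝ) := by
  refine csSup_le ⟨0, Lam.zero_mem_exSet fun ω _ => LocT.tbx_ok (LocT.zm_ok _ _)⟩ ?_
  rintro v ⟨Ω', _, P', π, W, h1, h2, rfl⟩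
  set W' : Bx Ω' := ⟨fun ω => l (π ω), W.θ, fun ω => W.k ω + s, fun ω => W.j ω + s⟩ with hW'
  have hsub : ∀ ω, 0 < P'.w ω → Sub 1 ((tbx n l).comp π) W' ω := by
    intro ω hω
    obtain ⟨a1, a2, a3, a4, a5, a6⟩ := h2 ω hω
    have a4' : W.k ω ≤ n - s := a4
    have a5' : W.j ω ≤ n - s := a5
    refine ⟨rfl, a2, ?_, ?_, ?_, ?_⟩
    · show W.k ω + s ≤ W.j ω + s
      omega
    · show W.k ω + s ≤ n
      omega
    · show W.j ω + s ≤ n
      omega
    · have a6' : |Real.sin (0 - W.θ ω)| * (1 / 2 : ℝ) ^ (n - s) ≤ 1 * (1 / 2 : ℝ) ^ W.j ω := a6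
      show |Real.sin (0 - W.θ ω)| * (1 / 2 : ℝ) ^ n ≤ 1 * (1 / 2 : ℝ) ^ (W.j ω + s)
      have e : (1 / 2 : ℝ) ^ n = (1 / 2 : ℝ) ^ (n - s) * (1 / 2) ^ s := by
        rw [← pow_add, Nat.sub_add_cancel h]
      rw [e, pow_add, ← mul_assoc, ← mul_assoc]
      exact mul_le_mul_of_nonneg_right a6' (by positivity)
  refine le_trans ?_ (add_le_add_left
    (Lam.exV_le_excF hlam (C := fun ω => (tb s (l ω), C ω)) h1 hsub) _)
  unfold exVl
  have hsz : P'.ex (fun ω => ((tbx (n - s) fun ω => LocT.zm s (l ω)).comp π).szl lam ω - W.szl lam ω) =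
      P'.ex (fun ω => ((tbx n l).comp π).szl lam ω - W'.szl lam ω) := by
    congr 1
    funext ω
    show ((1 + lam) * ((n - s : ℕ) : ℝ) + (1 - lam) * ((n - s : ℕ) : ℝ)) -
      ((1 + lam) * (W.k ω : ℝ) + (1 - lam) * W.j ω) =
      ((1 + lam) * (n : ℝ) + (1 - lam) * n) -
        ((1 + lam) * ((W.k ω + s : ℕ) : ℝ) + (1 - lam) * ((W.j ω + s : ℕ) : ℝ))
    rw [Nat.cast_sub h]
    push_cast
    ring
  rw [hsz]
  have hB : ∀ ω ω', ((tbx n l).comp π).lab ω = ((tbx n l).comp π).lab ω' ↔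
      tb n (l (π ω)) = tb n (l (π ω')) := fun ω ω' => LocT.lab_tube_eq
  have hB' : ∀ ω ω', ((tbx (n - s) fun ω => LocT.zm s (l ω)).comp π).lab ω =
      ((tbx (n - s) fun ω => LocT.zm s (l ω)).comp π).lab ω' ↔
      tb (n - s) (LocT.zm s (l (π ω))) = tb (n - s) (LocT.zm s (l (π ω'))) :=
    fun ω ω' => LocT.lab_tube_eq
  have e1 : Stk.hc P' ((tbx (n - s) fun ω => LocT.zm s (l ω)).comp π).lab
      (fun ω => (W.lab ω, (tb s (l (π ω)), C (π ω)))) =
      Stk.hc P' ((tbx n l).comp π).lab (fun ω => (W.lab ω, (tb s (l (π ω)), C (π ω)))) := by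
    refine Stk.hc_congr P' ?_ ?_ (fun _ _ _ _ e => e) (fun _ _ _ _ e => e)
    · intro ω ω' _ _ e
      rw [Prod.mk.injEq] at e
      rw [hB']
      exact LocT.zm_of_tb h ((hB _ _).1 e.1)
    · intro ω ω' _ _ e
      simp only [Prod.mk.injEq] at e
      rw [hB]
      exact LocT.tb_of_zm h ((hB' _ _).1 e.1) e.2.2.1
  rw [e1]
  have e2 := Stk.hc_le_add' P' ((tbx n l).comp π).lab W'.lab
    (fun ω => (W.lab ω, (tb s (l (π ω)), C (π ω))))
  have e3 : Stk.hc P' ((tbx n l).comp π).lab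
      (fun ω => (W'.lab ω, (W.lab ω, (tb s (l (π ω)), C (π ω))))) ≤
      Stk.hc P' ((tbx n l).comp π).lab (fun ω => (W'.lab ω, (tb s (l (π ω)), C (π ω)))) :=
    Stk.hc_mono_right P' _ fun _ _ _ _ e => by
      simp only [Prod.mk.injEq] at e ⊢
      exact ⟨e.1, e.2.2.1, e.2.2.2⟩
  have e4 : Stk.hc P' W'.lab (fun ω => (W.lab ω, (tb s (l (π ω)), C (π ω)))) ≤
      Real.log (((2 * 1 + 1) ^ 4 : ℕ) : ℝ) := by
    refine le_trans (Stk.hc_mono_right P' (Y := fun ω => (LocT.shl s (W.lab ω) (tb s (l (π ω))), ())) _ ?_)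
      (hc_labCl P' W'.lab (fun ω => LocT.shl s (W.lab ω) (tb s (l (π ω)))) (fun _ => ()) 1 ?_)
    · intro ω ω' _ _ e
      simp only [Prod.mk.injEq] at e ⊢
      rw [e.1, e.2.1]
      exact ⟨rfl, trivial⟩
    · intro ω hω
      have h3 := (h2 ω hω).1
      have h3' : W.l ω = LocT.zm s (l (π ω)) := h3
      have h4 := LocT.shl_close s (W.θ ω) (W.k ω) (W.j ω) (l (π ω))
      rw [← h3'] at h4
      exact h4
  linarith

end finite

variable {S : Sys} {γ : Type}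

/-- the last tubelet is known from the point -/
theorem tl_full {n : ℕ → ℕ} {l : S.RV Ln} {t : S.RV ℝ} (hl : LnA l) (ht : T01 t) :
    S.hc (tl n n l t) (pqs n (pt l t)) = 0 := by
  refine hc_zero_of_le (2 * Real.log (2 * (3 : ℕ) + 3) + 2 * Real.log (2 * (2 : ℕ) + 3)) ?_
  filter_upwards [hl, ht] with i hi hti
  exact Lam.hc_tlF_le (S.P i) (n i) (l := l i) (t := t i) fun ω hω => ⟨hi ω hω, hti ω hω⟩

theorem tame_tl {s n : ℕ → ℕ} (hn : S.Bd n) (hsn : ∀ i, s i ≤ n i) {l : S.RV Ln} {t : S.RV ℝ}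
    (hl : LnA l) (ht : T01 t) : Tame (tl s n l t) := by
  have hbs : S.Bd s := bd_mono hn hsn
  refine ((Fi.t01_tame ht hbs).pr ((Fi.tame_ps (s := s) hn hl ht).pr
    (tame_dir hn hl))).mono (Eventually.of_forall fun i ω ω' _ _ e => ?_)
  simp only [pr_apply, Prod.mk.injEq] at e
  have e1 : fl1 (s i) (t i ω) = fl1 (s i) (t i ω') := e.1
  have e2 : fl (n i) (pos (l i ω) (qa (s i) (t i ω))) = fl (n i) (pos (l i ω') (qa (s i) (t i ω'))) := e.2.1
  have e3 : fl (n i) (l i ω).2 = fl (n i) (l i ω').2 := e.2.2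
  have e4 : fl (n i - s i) (l i ω).2 = fl (n i - s i) (l i ω').2 := Stk.fl_of_fl (Nat.sub_le _ _) _ _ e3
  show (fl1 (s i) (t i ω), fl (n i) (pos (l i ω) (qa (s i) (t i ω))), fl (n i - s i) (l i ω).2) =
      (fl1 (s i) (t i ω'), fl (n i) (pos (l i ω') (qa (s i) (t i ω'))), fl (n i - s i) (l i ω').2)
  rw [e1, e2, e4]

/-- `h(l | Z_n, C) ≤ X(n)` -/
theorem le_xl_full (hlam : 0 ≤ lam ∧ lam ≤ 1) {n : ℕ → ℕ} (hn : S.Bd n) {l : S.RV Ln} {t : S.RV ℝ}
    (hl : LnA l) (ht : T01 t) (C : S.RV γ) :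
    S.hc (tbs n l) (Sys.pr (pqs n (pt l t)) C) ≤ Xl lam n n l t C := by
  have tX : Tame (tbs n l) := tame_tbs hn hl
  have tT : Tame (tl n n l t) := tame_tl hn (fun _ => le_rfl) hl ht
  have z : S.hc (tl n n l t) (Sys.pr (pqs n (pt l t)) C) = 0 :=
    Fi.hc_zero_mono tT (tl_full hl ht) (Eventually.of_forall fun _ _ _ _ _ e => congrArg Prod.fst e)
  have h1 : S.hc (tbs n l) (Sys.pr (pqs n (pt l t)) C) ≤ S.hc (tbs n l) (Sys.pr (tl n n l t) C) := by
    rw [← hc_cond_zero tX tT z]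
    refine hc_mono_right tX (Eventually.of_forall fun _ _ _ _ _ e => ?_)
    simp only [pr_apply, Prod.mk.injEq] at e ⊢
    exact ⟨e.1, e.2.2⟩
  have hb : BxA (tubes (fun i => n i - n i) (bl n l t)) :=
    Fi.tubes_bxA (bd_mono hn fun i => Nat.sub_le _ _) (Fi.bl_ok hl)
  have h2 := Lam.excl_nonneg hlam (Sys.pr (pqs n (pt l t)) C) hb
  unfold Xl
  linarith

/-- the penalised inequality at full precision -/
theorem jl_full (hlam : 0 ≤ lam ∧ lam ≤ 1) (hJ : JL N lam β) {n : ℕ → ℕ} (hn : S.Bd n)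
    {l : S.RV Ln} {t : S.RV ℝ} (hl : LnA l) (ht : T01 t) (C : S.RV γ) :
    S.hc (tbs n l) (Sys.pr (pqs n (pt l t)) C) ≤
      β * S.nu n + S.excl lam (tubes n l) C +
        N * (S.nu n - S.hc (dg n t) (Sys.pr (tbs n l) C)) :=
  (le_xl_full hlam hn hl ht C).trans (hJ S γ C l t n n hn hl ht fun _ => le_rfl)

/-- the penalised inequality inside the tube of precision `s` -/
theorem locTubeL (hlam : 0 ≤ lam ∧ lam ≤ 1) (hN : 0 ≤ N) (hJ : JL N lam β) {n s : ℕ → ℕ}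
    (hn : S.Bd n) {l : S.RV Ln} {t : S.RV ℝ} (hl : LnA l) (ht : T01 t) (hsn : ∀ i, s i ≤ n i)
    (C : S.RV γ) :
    S.hc (tbs n l) (Sys.pr (pqs n (pt l t)) (Sys.pr (tbs s l) C)) ≤
      β * (S.nu n - S.nu s) + S.excl lam (tubes n l) (Sys.pr (tbs s l) C) +
        N * (S.nu n - S.nu s - S.hc (dg (fun i => n i - s i) t) (Sys.pr (tbs n l) C)) := by
  set n' : ℕ → ℕ := fun i => n i - s i with hn'
  have hbs : S.Bd s := bd_mono hn hsn
  have hbn' : S.Bd n' := bd_mono hn (fun i => Nat.sub_le _ _)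
  set l' : S.RV Ln := fun i ω => LocT.zm (s i) (l i ω) with hl'def
  have hl' : LnA l' := Eventually.of_forall fun i ω _ => LocT.zm_ok _ _
  have hJ1 := jl_full hlam hJ hbn' hl' ht (Sys.pr (tbs s l) C)
  have hnu : S.nu n' = S.nu n - S.nu s := nu_sub hn hsn
  have T1 : Tame (tbs n l) := tame_tbs hn hl
  have T2 : Tame (tbs n' l') := tame_tbs hbn' hl'
  have T3 : Tame (pqs n' (pt l' t)) := tame_pt hbn' hl' ht
  have T4 : Tame (dg n' t) := Apx.tame_dg hbn' ht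
  have A : S.hc (tbs n l) (Sys.pr (pqs n (pt l t)) (Sys.pr (tbs s l) C)) ≤
      S.hc (tbs n' l') (Sys.pr (pqs n' (pt l' t)) (Sys.pr (tbs s l) C)) := by
    refine hc_cmp_sys T1 T2 (2 * Real.log 9) ?_
    filter_upwards [hl] with i hi
    have z1 : Stk.hc (S.P i) (tbs n l i)
        (fun ω => (tbs n' l' i ω, (Sys.pr (pqs n (pt l t)) (Sys.pr (tbs s l) C)) i ω)) = 0 := by
      apply Stk.hc_zero
      intro ω ω' _ _ e
      exact LocT.tb_of_zm (hsn i) (congrArg Prod.fst e) (congrArg (fun q => q.2.2.1) e)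
    have z2 : Stk.hc (S.P i) ((Sys.pr (pqs n' (pt l' t)) (Sys.pr (tbs s l) C)) i)
        ((Sys.pr (pqs n (pt l t)) (Sys.pr (tbs s l) C)) i) ≤ 2 * Real.log 9 := by
      have b1 := Apx.hc_pair_le (S.P i) (pqs n' (pt l' t) i) ((Sys.pr (tbs s l) C) i)
        ((Sys.pr (pqs n (pt l t)) (Sys.pr (tbs s l) C)) i)
      have b2 : Stk.hc (S.P i) ((Sys.pr (tbs s l) C) i)
          ((Sys.pr (pqs n (pt l t)) (Sys.pr (tbs s l) C)) i) = 0 := by
        apply Stk.hc_zero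
        intro ω ω' _ _ e
        exact congrArg Prod.snd e
      have b3 := LocT.point_le (S.P i) (s i) (n i) (hsn i) (l i) (t i) hi (C i)
      have b4 : Stk.hc (S.P i) (pqs n' (pt l' t) i)
        ((Sys.pr (pqs n (pt l t)) (Sys.pr (tbs s l) C)) i) ≤ 2 * Real.log 9 := b3
      have b5 : Stk.hc (S.P i) ((Sys.pr (pqs n' (pt l' t)) (Sys.pr (tbs s l) C)) i)
        ((Sys.pr (pqs n (pt l t)) (Sys.pr (tbs s l) C)) i) ≤ _ := b1
      linarith
    linarith
  have B : S.hc (dg n' t) (Sys.pr (tbs n l) C) ≤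
      S.hc (dg n' t) (Sys.pr (tbs n' l') (Sys.pr (tbs s l) C)) := by
    refine hc_mono_right T4 (Eventually.of_forall fun i ω ω' _ _ e => ?_)
    have e1 : tb (n i) (l i ω) = tb (n i) (l i ω') := congrArg Prod.fst e
    have e2 : C i ω = C i ω' := congrArg Prod.snd e
    exact Prod.ext (LocT.zm_of_tb (hsn i) e1) (Prod.ext (LocT.tb_of_tb (hsn i) e1) e2)
  have hBx : BxA (tubes n l) := Fi.tubes_bxA hn hl
  have hBx' : BxA (tubes n' l') := Fi.tubes_bxA hbn' hl'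
  have E : S.excl lam (tubes n' l') (Sys.pr (tbs s l) C) ≤
      S.excl lam (tubes n l) (Sys.pr (tbs s l) C) := by
    refine ulim_le_of_sub (Lam.ub_exc hlam hBx' _) (Lam.ub_exc hlam hBx _)
      (S.const_div_nm (Real.log (((2 * 1 + 1) ^ 4 : ℕ) : ℝ))) ?_
    filter_upwards [S.nm_pos] with i hi
    rw [← add_div]
    exact div_le_div_of_nonneg_right (excFl_zm hlam (S.P i) (l i) (C i) (hsn i)) hi.le
  rw [hnu] at hJ1
  have hB : N * (S.nu n - S.nu s - S.hc (dg n' t) (Sys.pr (tbs n' l') (Sys.pr (tbs s l) C))) ≤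
      N * (S.nu n - S.nu s - S.hc (dg n' t) (Sys.pr (tbs n l) C)) :=
    mul_le_mul_of_nonneg_left (by linarith) hN
  linarith

end Vale.Agent.P127.U.End
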