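import Vale.Agent.P127.U.End.FaceL
import Vale.Agent.P127.U.End.TubeL
import Vale.Agent.P127.U.End.Step

/-!
# P127 / U / End : END7 (helper611), after helper683

`pEnd7` : there is no extremal system for the penalised inequality, `lam < β`, `N ≥ 2`, whose lines
have the precision `L` of the time scale (the end label is the ball).
-/

set_option autoImplicit false

namespace Vale.Agent.P127.U.End

open Filter Topology Vale.Agent.P127 Vale.Agent.P127.Stk Vale.Agent.P127.U Sys Apx Flat PlaneOf Bil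

variable {N lam β : ℝ} {S : Sys} {γ : Type}

/-- the point is known from the last tubelet -/
theorem pt_of_tl {n : ℕ → ℕ} {l : S.RV Ln} {t : S.RV ℝ} (hl : LnA l) (ht : T01 t) (hn : S.Bd n) :
    S.hc (pqs n (pt l t)) (tl n n l t) = 0 := by
  refine Fi.hc_zero_pair (X := dg n t) (Fi.t01_tame ht hn) (Fi.tame_posv hn hl (Fi.t01_abs ht)) ?_ ?_
  · exact hc_fn (Eventually.of_forall fun _ _ _ _ _ e => congrArg Prod.fst e)
  · refine Fi.hc_zero_fl n 3 (fun i ω => pos (l i ω) (t i ω)) _ ?_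
    filter_upwards [hl] with i h1 ω ω' hω hω' e j
    have a1 : |pos (l i ω') (qa (n i) (t i ω')) j - pos (l i ω) (qa (n i) (t i ω)) j| ≤
        (1 / 2 : ℝ) ^ n i := Fi.fl_close1 (congrArg (fun q => q.2.1) e) j
    have a2 : ∀ ω, 0 < (S.P i).w ω → |pos (l i ω) (t i ω) j - pos (l i ω) (qa (n i) (t i ω)) j| ≤
        (1 / 2 : ℝ) ^ n i := by
      intro ω hω
      have e1 : pos (l i ω) (t i ω) j - pos (l i ω) (qa (n i) (t i ω)) j =
          (t i ω - qa (n i) (t i ω)) * (l i ω).2 j := by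
        unfold pos
        ring
      rw [e1, abs_mul]
      have b1 := abs_sub_qa (n i) (t i ω)
      have b2 := (h1 ω hω).2 j
      have := mul_le_mul b1 b2 (abs_nonneg _) (by positivity)
      rw [mul_one] at this
      exact this
    have a3 := a2 ω hω
    have a4 := a2 ω' hω'
    push_cast
    rw [abs_le] at a1 a3 a4 ⊢
    constructor <;> linarith [a1.1, a1.2, a3.1, a3.2, a4.1, a4.2]

/-- the excess of a box of bounded size is zero -/
theorem excl_zero (hlam : 0 ≤ lam ∧ lam ≤ 1) {m : ℕ → ℕ} (hm : ∀ i, m i = 0) {l : S.RV Ln}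
    (hl : LnA l) (C : S.RV γ) : S.excl lam (tubes m l) C = 0 := by
  have hb : BxA (tubes m l) := Fi.tubes_bxA ⟨0, Eventually.of_forall fun i => by rw [hm]; simp⟩ hl
  have hbm : S.Bd m := ⟨0, Eventually.of_forall fun i => by rw [hm]; simp⟩
  refine le_antisymm ?_ (Lam.excl_nonneg hlam C hb)
  have h1 : S.h (tubes m l).lab = 0 := by
    have t1 : Tame (tbs m l) := Fi.tame_tbs hbm hl
    have h2 : S.h (tbs m l) = 0 := by
      refine Fi.hc_zero_pair (X := dgv m fun i ω => (l i ω).1) (Y := dgv m (dir l)) ?_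
        (Fi.tame_dirv hbm hl) ?_ ?_
      · obtain ⟨c, hc⟩ := hbm
        refine Fi.tame_dgv (C := 1) hc ?_
        filter_upwards [hl] with i hi ω hω j
        have := (hi ω hω).1 j
        push_cast
        exact this
      · refine Fi.hc_zero_fl m 2 _ _ ?_
        filter_upwards [hl] with i h1 ω ω' hω hω' _ j
        have a1 := (h1 ω hω).1 j
        have a2 := (h1 ω' hω').1 j
        rw [hm]
        push_cast
        rw [abs_le] at a1 a2 ⊢
        constructor <;> linarith [a1.1, a1.2, a2.1, a2.2]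
      · refine Fi.hc_zero_fl m 2 _ _ ?_
        filter_upwards [hl] with i h1 ω ω' hω hω' _ j
        have a1 := (h1 ω hω).2 j
        have a2 := (h1 ω' hω').2 j
        rw [hm]
        push_cast
        show |(l i ω').2 j - (l i ω).2 j| ≤ _
        rw [abs_le] at a1 a2 ⊢
        constructor <;> linarith [a1.1, a1.2, a2.1, a2.2]
    exact Fi.hc_zero_trans hb.tame t1 (hc_fn (Coa.fn_lab m l)) h2
  rw [← h1]
  refine ulim_le (Lam.ub_exc hlam hb C) (UB.hc hb.tame _) ?_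
  filter_upwards [S.nm_pos, hb.ok] with i g1 g2
  refine div_le_div_of_nonneg_right ?_ g1.le
  refine (Lam.excF_le_H hlam g2).trans (le_of_eq ?_)
  exact (hc_unit (S.P i) _).symm

/-- `X(n) = h(l | Z_n, C)` -/
theorem xl_full (hlam : 0 ≤ lam ∧ lam ≤ 1) {n : ℕ → ℕ} (hn : S.Bd n) {l : S.RV Ln} {t : S.RV ℝ}
    (hl : LnA l) (ht : T01 t) (C : S.RV γ) :
    Xl lam n n l t C = S.hc (tbs n l) (Sys.pr (pqs n (pt l t)) C) := by
  refine le_antisymm ?_ (le_xl_full hlam hn hl ht C)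
  have tX : Tame (tbs n l) := Fi.tame_tbs hn hl
  have tZ : Tame (pqs n (pt l t)) := Fi.tame_pqs hn hl ht
  have z : S.hc (pqs n (pt l t)) (Sys.pr (tl n n l t) C) = 0 :=
    Fi.hc_zero_mono tZ (pt_of_tl hl ht hn) (Eventually.of_forall fun _ _ _ _ _ e => congrArg Prod.fst e)
  have h1 : S.hc (tbs n l) (Sys.pr (tl n n l t) C) ≤ S.hc (tbs n l) (Sys.pr (pqs n (pt l t)) C) := by
    rw [← hc_cond_zero tX tZ z]
    refine hc_mono_right tX (Eventually.of_forall fun _ _ _ _ _ e => ?_)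
    simp only [pr_apply, Prod.mk.injEq] at e ⊢
    exact ⟨e.1, e.2.2⟩
  unfold Xl
  rw [excl_zero hlam (fun i => Nat.sub_self (n i)) (Fi.bl_ok hl), zero_add]
  exact h1

/-- the equation of an extremal system with `n = L` -/
theorem xtr_eq (hlam : 0 ≤ lam ∧ lam ≤ 1) {l : S.RV Ln} {t : S.RV ℝ} (hX : XtrL N lam β S S.L l t) :
    S.hc (tbs S.L l) (Sys.pr (pqs S.L (pt l t)) (one (S := S))) =
      β + S.excl lam (tubes S.L l) (one (S := S)) + N * Dfc l t (one (S := S)) S.L := by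
  rw [← xl_full hlam Bd_L hX.ln hX.t01 (one (S := S))]
  exact hX.eq

/-- position and direction to the precision `b` from the direction and the point -/
theorem tb_of_dir {b : ℕ → ℕ} (hb : ∀ i, b i ≤ S.L i) {l : S.RV Ln} {t : S.RV ℝ} (hl : LnA l)
    (ht : T01 t) : S.hc (tbs b l) (Sys.pr (dgv b (dir l)) (pqs S.L (pt l t))) = 0 := by
  have hbb : S.Bd b := bd_mono Bd_L hb
  refine Fi.hc_zero_pair (X := dgv b fun i ω => (l i ω).1) (Y := dgv b (dir l)) ?_
    (Fi.tame_dirv hbb hl) ?_ (hc_fn (Eventually.of_forall fun _ _ _ _ _ e => congrArg Prod.fst e))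
  · obtain ⟨c, hc⟩ := hbb
    refine Fi.tame_dgv (C := 1) hc ?_
    filter_upwards [hl] with i hi ω hω j
    have := (hi ω hω).1 j
    push_cast
    exact this
  · refine Fi.hc_zero_fl b 3 _ _ ?_
    filter_upwards [hl, ht] with i h1 h2 ω ω' hω hω' e j
    simp only [pr_apply, Prod.mk.injEq] at e
    obtain ⟨e1, e2⟩ := e
    have hLb : (1 / 2 : ℝ) ^ S.L i ≤ (1 / 2) ^ b i := Fi.hp_anti (hb i)
    have a1 : |(l i ω').2 j - (l i ω).2 j| ≤ (1 / 2 : ℝ) ^ b i := Fi.fl_close1 e1 j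
    have a2 : |pos (l i ω') (t i ω') j - pos (l i ω) (t i ω) j| ≤ (1 / 2 : ℝ) ^ S.L i :=
      Fi.fl_close1 (congrArg Prod.snd e2) j
    have a3 : |t i ω' - t i ω| ≤ (1 / 2 : ℝ) ^ S.L i := Stk.Bs.fl1_close (congrArg Prod.fst e2)
    have key : (l i ω').1 j - (l i ω).1 j = (pos (l i ω') (t i ω') j - pos (l i ω) (t i ω) j) +
        -(t i ω * ((l i ω').2 j - (l i ω).2 j)) + -((t i ω' - t i ω) * (l i ω').2 j) := by
      unfold pos
      ring
    have ht1 : |t i ω| ≤ 1 := by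
      rw [abs_of_nonneg (h2 ω hω).1]
      exact (h2 ω hω).2
    have b1 := Fi.abs_le_of_mul ht1 a1
    have b2 := Fi.abs_le_of_mul a3 ((h1 ω' hω').2 j)
    rw [← abs_neg] at b1 b2
    rw [key]
    have := Fi.abs_add3 a2 b1 b2
    push_cast
    linarith

/-- growth : `h(y_b | Z_L) ≥ β b` -/
theorem growL (hlam : 0 ≤ lam ∧ lam ≤ 1) (hN : 0 ≤ N) (hJ : JL N lam β) {l : S.RV Ln} {t : S.RV ℝ}
    (hX : XtrL N lam β S S.L l t) {b : ℝ} (hb : 0 ≤ b) (hb1 : b ≤ 1) :
    β * b ≤ S.hc (dgv (S.sc b) (dir l)) (Sys.pr (pqs S.L (pt l t)) (one (S := S))) := by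
  have hl := hX.ln
  have ht := hX.t01
  have hs : ∀ i, S.sc b i ≤ S.L i := Coa.sc_le hb1
  have hbs : S.Bd (S.sc b) := bd_mono Bd_L hs
  have tX : Tame (tbs S.L l) := Fi.tame_tbs Bd_L hl
  have tT : Tame (tbs (S.sc b) l) := Fi.tame_tbs hbs hl
  have tY : Tame (dgv (S.sc b) (dir l)) := Fi.tame_dirv hbs hl
  have e1 := xtr_eq hlam hX
  have e2 := locTubeL hlam hN hJ Bd_L hl ht hs (one (S := S))
  have e3 := Lam.excl_cond hlam (one (S := S)) (tbs (S.sc b) l) (Fi.tubes_bxA (S := S) Bd_L hl)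
  rw [nu_L, Coa.nu_sc hb] at e2
  have e4 := hc_le_add tX tT (Sys.pr (pqs S.L (pt l t)) (one (S := S)))
  have e5 : S.hc (tbs S.L l) (Sys.pr (tbs (S.sc b) l) (Sys.pr (pqs S.L (pt l t)) (one (S := S)))) ≤
      S.hc (tbs S.L l) (Sys.pr (pqs S.L (pt l t)) (Sys.pr (tbs (S.sc b) l) (one (S := S)))) := by
    refine hc_mono_right tX (Eventually.of_forall fun _ _ _ _ _ e => ?_)
    simp only [pr_apply, Prod.mk.injEq] at e ⊢
    exact ⟨e.2.1, e.1, e.2.2⟩
  have z : S.hc (tbs (S.sc b) l) (Sys.pr (dgv (S.sc b) (dir l))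
      (Sys.pr (pqs S.L (pt l t)) (one (S := S)))) = 0 :=
    Fi.hc_zero_mono tT (tb_of_dir hs hl ht) (Eventually.of_forall fun _ _ _ _ _ e => by
      simp only [pr_apply, Prod.mk.injEq] at e ⊢
      exact ⟨e.1, e.2.1⟩)
  have e6 := hc_le_of_zero tT tY z
  -- the deficit
  have e7 : (1 - b - S.hc (dg (fun i => S.L i - S.sc b i) t) (Sys.pr (tbs S.L l) (one (S := S)))) ≤
      Dfc l t (one (S := S)) S.L := by
    have hm : ∀ i, S.L i - S.sc b i ≤ S.L i := fun i => Nat.sub_le _ _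
    have tdL : Tame (dg S.L t) := Fi.t01_tame ht Bd_L
    have tdm : Tame (dg (fun i => S.L i - S.sc b i) t) := Fi.t01_tame ht (bd_mono Bd_L hm)
    have g1 := hc_le_add tdL tdm (Sys.pr (tbs S.L l) (one (S := S)))
    have g2 := dg_le ht hm (Sys.pr (tbs S.L l) (one (S := S)))
    have g3 : S.nu (fun i => S.L i - (S.L i - S.sc b i)) = b := by
      rw [Apx.nu_sub Bd_L hm, Apx.nu_sub Bd_L hs, nu_L, Coa.nu_sc hb]
      ring
    rw [g3] at g2
    unfold Dfc
    rw [nu_L]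
    linarith
  have e8 := mul_le_mul_of_nonneg_left e7 hN
  linarith

theorem tubes_szl {n : ℕ → ℕ} {l : S.RV Ln} (i : ℕ) (ω : S.Ω i) :
    (tubes n l i).szl lam ω - (tubes (fun _ => 0) l i).szl lam ω = 2 * (n i : ℝ) := by
  show ((1 + lam) * (n i : ℝ) + (1 - lam) * (n i : ℝ)) -
        ((1 + lam) * ((0 : ℕ) : ℝ) + (1 - lam) * ((0 : ℕ) : ℝ)) = _
  push_cast
  ring

/-- the whole space as a container -/
theorem whole_val (hlam : 0 ≤ lam ∧ lam ≤ 1) {n : ℕ → ℕ} (hn : S.Bd n) {l : S.RV Ln} (hl : LnA l) :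
    S.h (tbs n l) - 2 * S.nu n ≤ S.excl lam (tubes n l) (one (S := S)) := by
  have hb := tubes_ok hn hl
  have hb0 : S.Bd (fun _ => 0) := ⟨0, Eventually.of_forall fun i => by simp⟩
  have h0 := tubes_ok hb0 hl
  have tX : Tame (tbs n l) := Fi.tame_tbs hn hl
  have t0 : Tame (tbs (fun _ => 0) l) := Fi.tame_tbs hb0 hl
  have h1 := excl_ge' hlam hb h0 (Coa.subA_tubes (fun i => Nat.zero_le (n i)) l) (one (S := S))
  have h2 : S.vall lam (tubes n l) (tubes (fun _ => 0) l) (one (S := S)) =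
      S.hc (tubes n l).lab (Sys.pr (tubes (fun _ => 0) l).lab (one (S := S))) - 2 * S.nu n := by
    have h : (S.av fun i ω => (tubes n l).szl lam i ω - (tubes (fun _ => 0) l).szl lam i ω) =
        2 * S.nu n := av_const hn tubes_szl
    unfold Sys.vall
    rw [h]
  have z0 : S.hc (tubes (fun _ => 0) l).lab (one (S := S)) = 0 := by
    have h2 : S.h (tbs (fun _ => 0) l) = 0 := by
      refine Fi.hc_zero_pair (X := dgv (fun _ => 0) fun i ω => (l i ω).1)
        (Y := dgv (fun _ => 0) (dir l)) ?_ (Fi.tame_dirv hb0 hl) ?_ ?_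
      · obtain ⟨c, hc⟩ := hb0
        refine Fi.tame_dgv (C := 1) hc ?_
        filter_upwards [hl] with i hi ω hω j
        have := (hi ω hω).1 j
        push_cast
        exact this
      · refine Fi.hc_zero_fl _ 2 _ _ ?_
        filter_upwards [hl] with i h1 ω ω' hω hω' _ j
        have a1 := (h1 ω hω).1 j
        have a2 := (h1 ω' hω').1 j
        push_cast
        rw [abs_le] at a1 a2 ⊢
        constructor <;> linarith [a1.1, a1.2, a2.1, a2.2]
      · refine Fi.hc_zero_fl _ 2 _ _ ?_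
        filter_upwards [hl] with i h1 ω ω' hω hω' _ j
        have a1 := (h1 ω hω).2 j
        have a2 := (h1 ω' hω').2 j
        push_cast
        show |(l i ω').2 j - (l i ω).2 j| ≤ _
        rw [abs_le] at a1 a2 ⊢
        constructor <;> linarith [a1.1, a1.2, a2.1, a2.2]
    exact Fi.hc_zero_trans h0.tame t0 (hc_fn (Coa.fn_lab _ l)) h2
  have h3 : S.h (tbs n l) ≤ S.hc (tubes n l).lab (Sys.pr (tubes (fun _ => 0) l).lab (one (S := S))) := by
    rw [hc_cond_zero hb.tame h0.tame z0]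
    exact hc_mono_left hb.tame tX (fn_pr_left (Coa.fn_lab' n l))
  linarith

/-- the number of points : `h(Z_L) ≤ 3 - β - (N + 1) D` -/
theorem totL (hlam : 0 ≤ lam ∧ lam ≤ 1) {l : S.RV Ln} {t : S.RV ℝ}
    (hX : XtrL N lam β S S.L l t) :
    S.hc (pqs S.L (pt l t)) (one (S := S)) ≤ 3 - β - (N + 1) * Dfc l t (one (S := S)) S.L := by
  have hl := hX.ln
  have ht := hX.t01
  have tX : Tame (tbs S.L l) := Fi.tame_tbs Bd_L hl
  have tZ : Tame (pqs S.L (pt l t)) := Fi.tame_pqs Bd_L hl ht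
  have tdL : Tame (dg S.L t) := Fi.t01_tame ht Bd_L
  have e1 := xtr_eq hlam hX
  have e2 := whole_val hlam Bd_L hl
  have e3 := mi_comm tX tZ (one (S := S))
  unfold Sys.mi at e3
  have e4 : S.hc (pqs S.L (pt l t)) (Sys.pr (tbs S.L l) (one (S := S))) ≤
      S.hc (dg S.L t) (Sys.pr (tbs S.L l) (one (S := S))) := by
    refine hc_le_of_zero tZ tdL ?_
    exact Fi.hc_zero_mono tZ (Fi.zero_pt Bd_L hl ht) (Eventually.of_forall fun _ _ _ _ _ e => by
      simp only [pr_apply, Prod.mk.injEq] at e ⊢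
      exact ⟨e.1, e.2.1⟩)
  have e5 : Dfc l t (one (S := S)) S.L = 1 - S.hc (dg S.L t) (Sys.pr (tbs S.L l) (one (S := S))) := by
    unfold Dfc
    rw [nu_L]
  have e6 : S.h (tbs S.L l) = S.hc (tbs S.L l) (one (S := S)) := rfl
  rw [nu_L] at e2
  linarith

theorem cntL (hlam : 0 ≤ lam ∧ lam ≤ 1) (hJ : JL N lam β) {l : S.RV Ln} {t : S.RV ℝ}
    (hX : XtrL N lam β S S.L l t) : Cnt N β S l t (one (S := S)) := by
  intro S' d
  have h := faceL hlam hJ d hX
  have e : S.L = S'.L := d.L_eq.symm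
  rw [e] at h
  exact totL hlam h

theorem trL (hlam : 0 ≤ lam ∧ lam ≤ 1) (hN : 0 ≤ N) (hJ : JL N lam β) {l : S.RV Ln} {t : S.RV ℝ}
    (hX : XtrL N lam β S S.L l t) : Tr β S l t (one (S := S)) := by
  intro S' d b hb hb1
  have h := faceL hlam hJ d hX
  have e : S.L = S'.L := d.L_eq.symm
  rw [e] at h
  exact growL hlam hN hJ h hb.le hb1

/-- **END7** : no extremal system whose lines have the precision of the time scale -/
theorem end7 (hN : 2 ≤ N) (h0 : 0 < lam) (h1 : lam ≤ 1) (hβ : lam < β) (hJ : JL N lam β)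
    {l : S.RV Ln} {t : S.RV ℝ} (hX : XtrL N lam β S S.L l t) : False := by
  have hlam : 0 ≤ lam ∧ lam ≤ 1 := ⟨h0.le, h1⟩
  have hβ0 : 0 < β := h0.trans hβ
  have hl := hX.ln
  have ht := hX.t01
  obtain ⟨r₀, hr0, hr1, hr⟩ := end_step hlam hN hβ0 hβ0 hl ht (cntL hlam hJ hX)
    (trL hlam (by linarith) hJ hX)
  have g1 := hr r₀ hr0 le_rfl
  have hs : ∀ i, S.sc (1 - r₀) i ≤ S.L i := Coa.sc_le (by linarith)
  have g2 := hJ S _ (one (S := S)) l t (S.sc (1 - r₀)) S.L Bd_L hl ht hs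
  rw [Coa.nu_sc (by linarith : (0:ℝ) ≤ 1 - r₀)] at g2
  have g3 := xtr_eq hlam hX
  have g4 : Dfc l t (one (S := S)) (S.sc (1 - r₀)) ≤ Dfc l t (one (S := S)) S.L :=
    Dfc_mono ht (one (S := S)) (by linarith) (by linarith)
  have g5 : Dl (S.sc (1 - r₀)) S.L l t (one (S := S)) = Dfc l t (one (S := S)) (S.sc (1 - r₀)) := rfl
  rw [g5] at g2
  have g6 : Xl lam (S.sc (1 - r₀)) S.L l t (one (S := S)) =
      S.excl lam (tubes (fun i => S.L i - S.sc (1 - r₀) i) (bl (S.sc (1 - r₀)) l t))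
        (Sys.pr (pqs (S.sc (1 - r₀)) (pt l t)) (one (S := S))) +
      S.hc (tbs S.L l) (Sys.pr (tl (S.sc (1 - r₀)) S.L l t) (one (S := S))) := rfl
  rw [← g6] at g1
  have g7 : 0 ≤ (N - 1) * (Dfc l t (one (S := S)) S.L - Dfc l t (one (S := S)) (S.sc (1 - r₀))) :=
    mul_nonneg (by linarith) (by linarith)
  have g8 : 0 < (β - lam) * r₀ := mul_pos (by linarith) hr0
  nlinarith

end Vale.Agent.P127.U.End

namespace Vale.Agent.P127.U

/-- END7 : no extremal system whose lines have the precision of the time scale -/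
def PEnd7 : Prop :=
  ∀ N lam β : ℝ, 2 ≤ N → 0 < lam → lam ≤ 1 → lam < β → JL N lam β →
    ∀ (S : Sys) (l : S.RV Ln) (t : S.RV ℝ), XtrL N lam β S S.L l t → False

theorem pEnd7 : PEnd7 := fun _ _ _ hN h0 h1 hβ hJ _ _ _ hX => End.end7 hN h0 h1 hβ hJ hX

end Vale.Agent.P127.U
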