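import Vale.Agent.P127.U.BasicA
import Vale.Agent.P127.U.Lam.FinDefs
import Vale.Agent.P127.U.Lam.Mix
import Vale.Agent.P127.U.Lam.ExcB

/-!
# P127 / U / End : extremal systems for the penalised inequality form a face (helper611, after helper205)
-/

set_option autoImplicit false

namespace Vale.Agent.P127.U.End

open Filter Topology Vale.Agent.P127 Vale.Agent.P127.Stk Vale.Agent.P127.U Sys

variable {N lam β : ℝ} {S : Sys} {γ : Type}

theorem bl_ln {s : ℕ → ℕ} {l : S.RV Ln} {t : S.RV ℝ} (hl : LnA l) : LnA (bl s l t) := by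
  filter_upwards [hl] with i hi ω hω
  refine ⟨fun j => ?_, (hi ω hω).2⟩
  show |Int.fract _| ≤ 1
  rw [abs_of_nonneg (Int.fract_nonneg _)]
  exact (Int.fract_lt_one _).le

/-- `Xl` is affine under a decomposition -/
theorem xl_mix (hl : 0 ≤ lam ∧ lam ≤ 1) {S' S'' : Sys} (d : Dmn S' S) (d' : Dmn S'' S) {p : ℝ}
    (hH : ∀ (α β : Type) (X : S.RV α) (Y : S.RV β), Tame X →
      S.hc X Y = p * S'.hc (d.pull X) (d.pull Y) + (1 - p) * S''.hc (d'.pull X) (d'.pull Y))
    (hE : ∀ lam : ℝ, 0 ≤ lam ∧ lam ≤ 1 → ∀ (γ : Type) (C : S.RV γ) (B : S.BX), BxA B →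
      S.excl lam B C = p * S'.excl lam (d.pullB B) (d.pull C) +
        (1 - p) * S''.excl lam (d'.pullB B) (d'.pull C))
    {s n : ℕ → ℕ} (hn : S.Bd n) {l : S.RV Ln} {t : S.RV ℝ} (hln : LnA l)
    (C : S.RV γ) :
    Xl lam s n l t C = p * Xl lam s n (d.pull l) (d.pull t) (d.pull C) +
      (1 - p) * Xl lam s n (d'.pull l) (d'.pull t) (d'.pull C) := by
  have a1 := hH _ _ (tbs n l) (Sys.pr (tl s n l t) C) (tame_tbs hn hln)
  have hb : BxA (tubes (fun i => n i - s i) (bl s l t)) := tubes_ok (by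
    obtain ⟨c, hc⟩ := hn
    refine ⟨c, ?_⟩
    filter_upwards [hc] with i hi
    have : ((n i - s i : ℕ) : ℝ) ≤ n i := by exact_mod_cast Nat.sub_le _ _
    exact this.trans hi) (bl_ln hln)
  have a2 := hE lam hl _ (Sys.pr (pqs s (pt l t)) C) _ hb
  have b1 : d.pullB (tubes (fun i => n i - s i) (bl s l t)) =
      tubes (fun i => n i - s i) (bl s (d.pull l) (d.pull t)) := rfl
  have b2 : d'.pullB (tubes (fun i => n i - s i) (bl s l t)) =
      tubes (fun i => n i - s i) (bl s (d'.pull l) (d'.pull t)) := rfl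
  have b3 : d.pull (Sys.pr (pqs s (pt l t)) C) = Sys.pr (pqs s (pt (d.pull l) (d.pull t))) (d.pull C) := rfl
  have b4 : d'.pull (Sys.pr (pqs s (pt l t)) C) =
    Sys.pr (pqs s (pt (d'.pull l) (d'.pull t))) (d'.pull C) := rfl
  have b5 : d.pull (Sys.pr (tl s n l t) C) = Sys.pr (tl s n (d.pull l) (d.pull t)) (d.pull C) := rfl
  have b6 : d'.pull (Sys.pr (tl s n l t) C) = Sys.pr (tl s n (d'.pull l) (d'.pull t)) (d'.pull C) := rfl
  have b7 : d.pull (tbs n l) = tbs n (d.pull l) := rfl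
  have b8 : d'.pull (tbs n l) = tbs n (d'.pull l) := rfl
  rw [b1, b2, b3, b4] at a2
  rw [b5, b6, b7, b8] at a1
  unfold Xl
  rw [a1, a2]
  ring

/-- the extremal systems are inherited by dominated systems -/
theorem faceL (hl : 0 ≤ lam ∧ lam ≤ 1) (hJ : JL N lam β) {S' : Sys} (d : Dmn S' S) {n : ℕ → ℕ}
    {l : S.RV Ln} {t : S.RV ℝ} (hX : XtrL N lam β S n l t) :
    XtrL N lam β S' n (d.pull l) (d.pull t) := by
  obtain ⟨S'', d', p, hp0, hp1, hH, hE⟩ := Lam.mixl S S' d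
  have hl' : LnA (d.pull l) := d.ae hX.ln
  have ht' : T01 (d.pull t) := d.ae hX.t01
  have hl'' : LnA (d'.pull l) := d'.ae hX.ln
  have ht'' : T01 (d'.pull t) := d'.ae hX.t01
  have hb' : S'.Bd n := by
    have := hX.bd
    unfold Sys.Bd at this ⊢
    rw [d.L_eq]
    exact this
  have hb'' : S''.Bd n := by
    have := hX.bd
    unfold Sys.Bd at this ⊢
    rw [d'.L_eq]
    exact this
  have hle' : ∀ i, S'.L i ≤ n i := by
    rw [d.L_eq]
    exact hX.le
  have hle'' : ∀ i, S''.L i ≤ n i := by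
    rw [d'.L_eq]
    exact hX.le
  refine ⟨hb', hle', hl', ht', ?_⟩
  have J' := hJ S' _ (one (S := S')) (d.pull l) (d.pull t) S'.L n hb' hl' ht' hle'
  have J'' := hJ S'' _ (one (S := S'')) (d'.pull l) (d'.pull t) S''.L n hb'' hl'' ht'' hle''
  have a1 := xl_mix hl d d' hH hE (s := S.L) (t := t) hX.bd hX.ln (one (S := S))
  have a2 := hH _ _ (dg S.L t) (Sys.pr (tbs n l) (one (S := S))) (tame_dg_t Bd_L hX.t01)
  have a3 := hE lam hl _ (one (S := S)) (tubes n l) (tubes_ok hX.bd hX.ln)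
  have hq := hX.eq
  have b1 : Xl lam S.L n (d.pull l) (d.pull t) (d.pull (one (S := S))) =
      Xl lam S'.L n (d.pull l) (d.pull t) (one (S := S')) := by
    rw [d.L_eq]
    rfl
  have c1 : Xl lam S.L n (d'.pull l) (d'.pull t) (d'.pull (one (S := S))) =
      Xl lam S''.L n (d'.pull l) (d'.pull t) (one (S := S'')) := by
    rw [d'.L_eq]
    rfl
  have b2 : S'.hc (d.pull (dg S.L t)) (d.pull (Sys.pr (tbs n l) (one (S := S)))) =
      S'.hc (dg S'.L (d.pull t)) (Sys.pr (tbs n (d.pull l)) (one (S := S'))) := by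
    rw [d.L_eq]
    rfl
  have c2 : S''.hc (d'.pull (dg S.L t)) (d'.pull (Sys.pr (tbs n l) (one (S := S)))) =
      S''.hc (dg S''.L (d'.pull t)) (Sys.pr (tbs n (d'.pull l)) (one (S := S''))) := by
    rw [d'.L_eq]
    rfl
  have b3 : S'.excl lam (d.pullB (tubes n l)) (d.pull (one (S := S))) =
      S'.excl lam (tubes n (d.pull l)) (one (S := S')) := rfl
  have c3 : S''.excl lam (d'.pullB (tubes n l)) (d'.pull (one (S := S))) =
      S''.excl lam (tubes n (d'.pull l)) (one (S := S'')) := rfl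
  rw [b1, c1] at a1
  rw [b2, c2] at a2
  rw [b3, c3] at a3
  unfold Dl at hq J' J'' ⊢
  rw [nu_L] at hq J' J'' ⊢
  rw [a1, a2, a3] at hq
  refine le_antisymm (by linarith) ?_
  by_contra hcon
  push Not at hcon
  have hq' : p * (β + S'.excl lam (tubes n (d.pull l)) (one (S := S')) +
      N * (1 - S'.hc (dg S'.L (d.pull t)) (Sys.pr (tbs n (d.pull l)) (one (S := S')))) -
      Xl lam S'.L n (d.pull l) (d.pull t) (one (S := S'))) +
      (1 - p) * (β + S''.excl lam (tubes n (d'.pull l)) (one (S := S'')) +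
      N * (1 - S''.hc (dg S''.L (d'.pull t)) (Sys.pr (tbs n (d'.pull l)) (one (S := S'')))) -
      Xl lam S''.L n (d'.pull l) (d'.pull t) (one (S := S''))) = 0 := by
    linarith
  have g1 := mul_pos hp0 (sub_pos.2 hcon)
  have g2 : 0 ≤ (1 - p) * (β + S''.excl lam (tubes n (d'.pull l)) (one (S := S'')) +
      N * (1 - S''.hc (dg S''.L (d'.pull t)) (Sys.pr (tbs n (d'.pull l)) (one (S := S'')))) -
      Xl lam S''.L n (d'.pull l) (d'.pull t) (one (S := S''))) :=
    mul_nonneg (sub_pos.2 hp1).le (by linarith)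
  linarith

end Vale.Agent.P127.U.End
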